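import Vale.Agent.P336S.Moment

/-! Signed inclusion-exclusion over the wide clauses of a restricted formula. -/

open Finset
open scoped Classical

noncomputable section

namespace Vale.Agent.P336S

variable {Λ Ω : Type} [Fintype Ω]

/-- The points of the subcube `ρ`. -/
def cube (h : Λ → Ω → Prop) (ρ : Finset Λ) : Finset Ω := univ.filter fun x => ∀ l ∈ ρ, h l x

/-- The points of the subcube `ρ` that avoid the patterns of `E` and the first `I` patterns of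
the sequence `π`. -/
def cell (h : Λ → Ω → Prop) (π : ℕ → Finset Λ) (ρ : Finset Λ) (E : Finset (Finset Λ)) (I : ℕ) :
    Finset Ω :=
  (cube h ρ).filter fun x => (∀ σ ∈ E, ¬∀ l ∈ σ, h l x) ∧ ∀ j < I, ¬∀ l ∈ π j, h l x

namespace Incl

variable {h : Λ → Ω → Prop} {π : ℕ → Finset Λ} {b M : ℕ} {g : Ω → ℝ}

theorem mem_cell {ρ : Finset Λ} {E : Finset (Finset Λ)} {I : ℕ} {x : Ω} : x ∈ cell h π ρ E I ↔
    (∀ l ∈ ρ, h l x) ∧ (∀ σ ∈ E, ¬∀ l ∈ σ, h l x) ∧ ∀ j < I, ¬∀ l ∈ π j, h l x := by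
  simp only [cell, cube, mem_filter, mem_univ, true_and]

/-- The pattern `j` is wide and it is the first one that is forced by its own extension. -/
def Child (π : ℕ → Finset Λ) (b : ℕ) (ρ : Finset Λ) (j : ℕ) : Prop :=
  b < (π j \ ρ).card ∧ ∀ i < j, ¬π i ⊆ ρ ∪ π j

theorem recur {C F : Finset Λ → ℝ} (hF0 : ∀ ρ, 0 ≤ F ρ)
    (hC : ∀ ρ E, (∀ σ ∈ E, (σ \ ρ).card ≤ b) → |∑ x ∈ cell h π ρ E 0, g x| ≤ C ρ)
    (hF : ∀ ρ E, ∀ I ≤ M, (∀ σ ∈ E, (σ \ ρ).card ≤ b) → |∑ x ∈ cell h π ρ E I, g x| ≤ F ρ)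
    (ρ : Finset Λ) (I : ℕ) : I ≤ M → ∀ E : Finset (Finset Λ), (∀ σ ∈ E, (σ \ ρ).card ≤ b) →
      |∑ x ∈ cell h π ρ E I, g x| ≤
        C ρ + ∑ j ∈ range I, if Child π b ρ j then F (ρ ∪ π j) else 0 := by
  induction I with
  | zero => exact fun _ E hE => by simpa using hC ρ E hE
  | succ I ih =>
    intro hI E hE
    rw [sum_range_succ, ← add_assoc]
    by_cases hw : (π I \ ρ).card ≤ b
    · have e : cell h π ρ E (I + 1) = cell h π ρ (insert (π I) E) I := by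
        ext x
        simp only [mem_cell, forall_mem_insert, Nat.forall_lt_succ_right]
        tauto
      rw [e]
      refine (ih (by omega) _ (forall_mem_insert _ _ _ |>.2 ⟨hw, hE⟩)).trans
        (le_add_of_nonneg_right ?_)
      split_ifs
      · exact hF0 _
      · exact le_rfl
    · have e1 : cell h π ρ E (I + 1) = (cell h π ρ E I).filter fun x => ¬∀ l ∈ π I, h l x := by
        ext x
        simp only [mem_cell, mem_filter, Nat.forall_lt_succ_right]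
        tauto
      have e2 : cell h π (ρ ∪ π I) E I = (cell h π ρ E I).filter fun x => ∀ l ∈ π I, h l x := by
        ext x
        simp only [mem_cell, mem_filter, forall_mem_union]
        tauto
      have e3 : ∑ x ∈ cell h π ρ E (I + 1), g x =
          ∑ x ∈ cell h π ρ E I, g x - ∑ x ∈ cell h π (ρ ∪ π I) E I, g x := by
        rw [e1, e2, ← sum_filter_add_sum_filter_not (cell h π ρ E I) fun x => ∀ l ∈ π I, h l x]
        ring
      rw [e3]
      refine (abs_sub _ _).trans (add_le_add (ih (by omega) E hE) ?_)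
      split_ifs with hc
      · exact hF _ E I (by omega) fun σ hσ =>
          (card_le_card (sdiff_subset_sdiff Subset.rfl subset_union_left)).trans (hE σ hσ)
      · rw [sum_eq_zero, abs_zero]
        intro x hx
        obtain ⟨h1, -, h3⟩ := mem_cell.1 hx
        exact absurd ⟨not_le.1 hw, fun i hi hs => h3 i hi fun l hl => h1 l (hs hl)⟩ hc

theorem tail (σ : Finset Λ) {q : ℝ} (hq : 0 ≤ q) {k : ℕ} (hk : σ.card ≤ k)
    (hb : (1 + 2 * q) ^ k ≤ 2 ^ b) :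
    ∑ s ∈ σ.powerset with b < s.card, q ^ s.card ≤ 1 / 2 := by
  have h1 : ∑ s ∈ σ.powerset, (2 * q) ^ s.card = (1 + 2 * q) ^ σ.card := by
    rw [← prod_const, prod_one_add]
    simp only [prod_const]
  have h2 : 2 ^ (b + 1) * ∑ s ∈ σ.powerset with b < s.card, q ^ s.card ≤ 2 ^ b := by
    refine le_trans ?_ ((pow_le_pow_right₀ (by linarith) hk).trans hb)
    rw [← h1, mul_sum]
    refine (sum_le_sum fun s hs => ?_).trans
      (sum_le_sum_of_subset_of_nonneg (filter_subset _ _) fun s _ _ => by positivity)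
    rw [mul_pow]
    exact mul_le_mul_of_nonneg_right (pow_le_pow_right₀ one_le_two (mem_filter.1 hs).2)
      (pow_nonneg hq _)
  rw [pow_succ] at h2
  have h3 : (0 : ℝ) < 2 ^ b := by positivity
  nlinarith

variable [Fintype Λ]

theorem count {F : Finset Λ → ℝ} (hF0 : ∀ ρ, 0 ≤ F ρ) {u : ℝ} (hu : 0 < u) (j : ℕ)
    (ht : ∑ s ∈ (π j).powerset with b < s.card, u⁻¹ ^ s.card ≤ 1 / 2) :
    ∑ ρ with Child π b ρ j, u ^ ρ.card * F (ρ ∪ π j) ≤
      (∑ ρ with π j ⊆ ρ ∧ ∀ i < j, ¬π i ⊆ ρ, u ^ ρ.card * F ρ) * (1 / 2) := by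
  have back : ∀ ρ : Finset Λ, (ρ ∪ π j) \ (π j \ ρ) = ρ := fun ρ => by
    ext l
    simp only [mem_sdiff, mem_union]
    tauto
  have inj : Set.InjOn (fun ρ : Finset Λ => (ρ ∪ π j, π j \ ρ))
      (univ.filter fun ρ => Child π b ρ j : Finset _) := fun ρ _ ρ' _ e => by
    rw [← back ρ, ← back ρ', (Prod.mk.inj e).1, (Prod.mk.inj e).2]
  have e1 : ∑ ρ with Child π b ρ j, u ^ ρ.card * F (ρ ∪ π j) =
      ∑ v ∈ (univ.filter fun ρ => Child π b ρ j).image fun ρ => (ρ ∪ π j, π j \ ρ),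
        u ^ v.1.card * F v.1 * u⁻¹ ^ v.2.card := by
    rw [sum_image inj]
    refine sum_congr rfl fun ρ _ => ?_
    have : (ρ ∪ π j).card = (π j \ ρ).card + ρ.card := by
      rw [card_sdiff_add_card, union_comm]
    rw [this, pow_add, inv_pow]
    field_simp
  refine le_trans ?_ (mul_le_mul_of_nonneg_left ht
    (sum_nonneg fun ρ _ => mul_nonneg (pow_nonneg hu.le _) (hF0 ρ)))
  rw [e1, sum_mul_sum, ← sum_product']
  refine sum_le_sum_of_subset_of_nonneg (fun v hv => ?_) fun v _ _ =>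
    mul_nonneg (mul_nonneg (pow_nonneg hu.le _) (hF0 _)) (pow_nonneg (inv_nonneg.2 hu.le) _)
  obtain ⟨ρ, hρ, rfl⟩ := mem_image.1 hv
  obtain ⟨h1, h2⟩ := (mem_filter.1 hρ).2
  exact mem_product.2 ⟨mem_filter.2 ⟨mem_univ _, subset_union_right, h2⟩,
    mem_filter.2 ⟨mem_powerset.2 sdiff_subset, h1⟩⟩

theorem first {G : Finset Λ → ℝ} (hG : ∀ ρ, 0 ≤ G ρ) :
    ∑ j ∈ range M, ∑ ρ with π j ⊆ ρ ∧ ∀ i < j, ¬π i ⊆ ρ, G ρ ≤ ∑ ρ, G ρ := by
  rw [← sum_biUnion]
  · exact sum_le_sum_of_subset_of_nonneg (subset_univ _) fun ρ _ _ => hG ρ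
  · intro i _ j _ hij
    refine disjoint_left.2 fun ρ h1 h2 => ?_
    obtain ⟨a1, a2⟩ := (mem_filter.1 h1).2
    obtain ⟨b1, b2⟩ := (mem_filter.1 h2).2
    rcases lt_or_gt_of_ne hij with c | c
    · exact b2 i c a1
    · exact a2 j c b1

end Incl

variable [Fintype Λ]

/-- Averaging over subcubes. -/
theorem sum_cube {h : Λ → Ω → Prop} {n : ℕ} (hn : ∀ x, (univ.filter fun l => h l x).card = n)
    (v : ℝ) (f : Ω → ℝ) :
    ∑ ρ : Finset Λ, v ^ ρ.card * ∑ x ∈ cube h ρ, f x = (1 + v) ^ n * ∑ x, f x := by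
  simp only [cube, sum_filter, mul_sum, mul_ite, mul_zero]
  rw [sum_comm]
  refine sum_congr rfl fun x _ => ?_
  rw [← hn x, ← prod_const, prod_one_add, sum_mul, ← sum_filter]
  refine sum_congr (Finset.ext fun ρ => ?_) fun ρ _ => by rw [prod_const]
  simp only [mem_filter, mem_univ, true_and, mem_powerset, subset_iff]

/-- The correlation with a formula of width `k` is bounded by the correlations with formulas of
width `b` on random subcubes. -/
theorem incl {h : Λ → Ω → Prop} {n : ℕ} (hn : ∀ x, (univ.filter fun l => h l x).card = n)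
    {π : ℕ → Finset Λ} {k b M : ℕ} (hk : ∀ j < M, (π j).card ≤ k) {u : ℝ} (hu : 0 < u)
    (hb : (1 + 2 * u⁻¹) ^ k ≤ 2 ^ b) (g : Ω → ℝ) {C : Finset Λ → ℝ}
    (hC : ∀ ρ E, (∀ σ ∈ E, (σ \ ρ).card ≤ b) → |∑ x ∈ cell h π ρ E 0, g x| ≤ C ρ)
    {H : Finset Ω} (hH : ∀ x, x ∈ H ↔ ∀ j < M, ¬∀ l ∈ π j, h l x) :
    (1 + u) ^ n * |∑ x ∈ H, g x| ≤ 2 * ∑ ρ : Finset Λ, u ^ ρ.card * C ρ := by
  rw [show H = univ.filter fun x => ∀ j < M, ¬∀ l ∈ π j, h l x from
    Finset.ext fun x => by rw [hH, mem_filter, and_iff_right (mem_univ _)]]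
  have ex : ∀ ρ : Finset Λ, ∃ Z : Finset Ω,
      (∃ E, ∃ I ≤ M, (∀ σ ∈ E, (σ \ ρ).card ≤ b) ∧ cell h π ρ E I = Z) ∧
      ∀ E, ∀ I ≤ M, (∀ σ ∈ E, (σ \ ρ).card ≤ b) →
        |∑ x ∈ cell h π ρ E I, g x| ≤ |∑ x ∈ Z, g x| := fun ρ => by
    obtain ⟨Z, h1, h2⟩ := exists_max_image (univ.filter fun Z : Finset Ω =>
      ∃ E, ∃ I ≤ M, (∀ σ ∈ E, (σ \ ρ).card ≤ b) ∧ cell h π ρ E I = Z) (fun Z => |∑ x ∈ Z, g x|)
      ⟨_, mem_filter.2 ⟨mem_univ _, ∅, 0, Nat.zero_le _, fun _ hσ => absurd hσ (notMem_empty _),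
        rfl⟩⟩
    exact ⟨Z, (mem_filter.1 h1).2, fun E I hI hE =>
      h2 _ (mem_filter.2 ⟨mem_univ _, E, I, hI, hE, rfl⟩)⟩
  choose Z hZ1 hZ2 using ex
  set F : Finset Λ → ℝ := fun ρ => |∑ x ∈ Z ρ, g x| with hF
  have hF0 : ∀ ρ, 0 ≤ F ρ := fun ρ => abs_nonneg _
  have r1 : ∀ ρ, F ρ ≤ C ρ + ∑ j ∈ range M, if Incl.Child π b ρ j then F (ρ ∪ π j) else 0 := by
    intro ρ
    obtain ⟨E, I, hI, hE, e⟩ := hZ1 ρ
    have := Incl.recur (F := F) hF0 hC hZ2 ρ I hI E hE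
    rw [e] at this
    refine this.trans (add_le_add le_rfl (sum_le_sum_of_subset_of_nonneg
      (range_subset_range.2 hI) fun j _ _ => ?_))
    split_ifs
    · exact hF0 _
    · exact le_rfl
  have r2 : ∑ ρ : Finset Λ, u ^ ρ.card * F ρ ≤
      ∑ ρ : Finset Λ, u ^ ρ.card * C ρ + (∑ ρ : Finset Λ, u ^ ρ.card * F ρ) * (1 / 2) := by
    refine (sum_le_sum fun ρ _ => mul_le_mul_of_nonneg_left (r1 ρ) (pow_nonneg hu.le _)).trans ?_
    simp only [mul_add, sum_add_distrib, mul_sum, mul_ite, mul_zero]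
    refine add_le_add le_rfl ?_
    rw [sum_comm]
    refine (sum_le_sum fun j hj => ?_).trans ((sum_mul _ _ _).symm.trans_le
      (mul_le_mul_of_nonneg_right (Incl.first (π := π) (M := M)
        fun ρ => mul_nonneg (pow_nonneg hu.le _) (hF0 ρ)) (by norm_num)))
    rw [← sum_filter]
    exact Incl.count hF0 hu j (Incl.tail _ (inv_nonneg.2 hu.le) (hk j (mem_range.1 hj)) hb)
  have r3 : (1 + u) ^ n * |∑ x with ∀ j < M, ¬∀ l ∈ π j, h l x, g x| ≤
      ∑ ρ : Finset Λ, u ^ ρ.card * F ρ := by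
    rw [← abs_of_nonneg (a := (1 + u) ^ n) (by positivity), ← abs_mul, sum_filter, ← sum_cube hn]
    refine (abs_sum_le_sum_abs _ _).trans (sum_le_sum fun ρ _ => ?_)
    rw [abs_mul, abs_of_nonneg (pow_nonneg hu.le _), ← sum_filter]
    refine mul_le_mul_of_nonneg_left (le_trans (le_of_eq ?_)
      (hZ2 ρ ∅ M le_rfl fun _ hσ => absurd hσ (notMem_empty _))) (pow_nonneg hu.le _)
    refine congrArg (fun T : Finset Ω => |∑ x ∈ T, g x|) (Finset.ext fun x => ?_)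
    simp only [cell, mem_filter, notMem_empty, false_imp_iff, implies_true, true_and]
  linarith

end Vale.Agent.P336S
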