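import Vale.Agent.P336S.Spars

/-! Moments of small bias families. -/

open Finset
open scoped Classical

namespace Vale.Agent.P336S

namespace Moment

variable {ι Ω S : Type}

theorem few [Fintype ι] [DecidableEq ι] [Nonempty ι] (T : Finset Ω) (t : ℕ) :
    ((Fintype.piFinset fun _ : ι => T).filter fun f => (univ.image f).card ≤ t).card ≤
      t ^ Fintype.card ι * T.card ^ t := by
  have hs : ((Fintype.piFinset fun _ : ι => T).filter fun f => (univ.image f).card ≤ t) ⊆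
      ((univ : Finset (ι → Fin t)) ×ˢ Fintype.piFinset fun _ : Fin t => T).image
        fun v => v.2 ∘ v.1 := by
    intro f hf
    obtain ⟨h1, h2⟩ := mem_filter.1 hf
    obtain ⟨e⟩ : Nonempty (univ.image f ↪ Fin t) :=
      Function.Embedding.nonempty_of_card_le (by simpa using h2)
    let φ : ι → Fin t := fun i => e ⟨f i, mem_image_of_mem f (mem_univ i)⟩
    refine mem_image.2 ⟨(φ, fun j => f (Function.invFun φ j)), mem_product.2 ⟨mem_univ _,
      Fintype.mem_piFinset.2 fun j => Fintype.mem_piFinset.1 h1 _⟩, funext fun i => ?_⟩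
    exact congrArg Subtype.val (e.injective (Function.invFun_eq (f := φ) ⟨i, rfl⟩))
  refine (card_le_card hs).trans (card_image_le.trans_eq ?_)
  simp

theorem prod_odd [Fintype ι] (f : ι → Ω) {g : Ω → ℝ} (hg : ∀ x, g x = 1 ∨ g x = -1) :
    ∏ i, g (f i) =
      ∏ x ∈ (univ.image f).filter fun x => Odd (univ.filter fun i => f i = x).card, g x := by
  rw [prod_comp, prod_filter]
  refine prod_congr rfl fun x _ => ?_
  split_ifs with hx
  · rcases hg x with e | e
    · rw [e, one_pow]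
    · rw [e, hx.neg_one_pow]
  · rcases hg x with e | e
    · rw [e, one_pow]
    · rw [e, (Nat.not_odd_iff_even.1 hx).neg_one_pow]

theorem img [Fintype ι] {t : ℕ} (ht : Fintype.card ι = 2 * t) (f : ι → Ω)
    (h : ¬((univ.image f).filter fun x => Odd (univ.filter fun i => f i = x).card).Nonempty) :
    (univ.image f).card ≤ t := by
  have h1 : (univ.image f).card * 2 ≤ ∑ x ∈ univ.image f, (univ.filter fun i => f i = x).card := by
    refine card_nsmul_le_sum _ _ 2 fun x hx => ?_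
    have h2 : Even (univ.filter fun i => f i = x).card :=
      Nat.not_odd_iff_even.1 fun ho => h ⟨x, mem_filter.2 ⟨hx, ho⟩⟩
    obtain ⟨i, -, hi⟩ := mem_image.1 hx
    have h3 : 0 < (univ.filter fun i => f i = x).card :=
      card_pos.2 ⟨i, mem_filter.2 ⟨mem_univ _, hi⟩⟩
    obtain ⟨c, hc⟩ := h2
    omega
  rw [← card_eq_sum_card_image, card_univ, ht] at h1
  omega

end Moment

variable {Λ Ω S : Type} [Fintype S]

/-- The even moments. -/
theorem moment (X : Finset Ω) (g : S → Ω → ℝ) (hg : ∀ s x, g s x = 1 ∨ g s x = -1) {β : ℝ}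
    (hβ : 0 ≤ β) (hb : ∀ A ⊆ X, A.Nonempty → |∑ s, ∏ x ∈ A, g s x| ≤ β * Fintype.card S) (t : ℕ)
    {T : Finset Ω} (hT : T ⊆ X) : ∑ s, (∑ x ∈ T, g s x) ^ (2 * t) ≤
      ((t : ℝ) ^ (2 * t) * (X.card : ℝ) ^ t + β * (X.card : ℝ) ^ (2 * t)) * Fintype.card S := by
  rcases Nat.eq_zero_or_pos t with rfl | ht
  · simp only [mul_zero, pow_zero, sum_const, card_univ, nsmul_eq_mul, mul_one, add_mul, one_mul]
    exact le_add_of_nonneg_right (by positivity)
  have : Nonempty (Fin (2 * t)) := ⟨⟨0, by omega⟩⟩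
  have hc : (T.card : ℝ) ≤ X.card := Nat.cast_le.2 (card_le_card hT)
  have e1 : ∀ s, (∑ x ∈ T, g s x) ^ (2 * t) =
      ∑ f ∈ Fintype.piFinset fun _ : Fin (2 * t) => T, ∏ i, g s (f i) := fun s => by
    rw [← prod_univ_sum, prod_const, card_univ, Fintype.card_fin]
  rw [sum_congr rfl fun s _ => e1 s, sum_comm]
  have key : ∀ f ∈ Fintype.piFinset fun _ : Fin (2 * t) => T, ∑ s, ∏ i, g s (f i) ≤
      (if (univ.image f).card ≤ t then (Fintype.card S : ℝ) else 0) + β * Fintype.card S := by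
    intro f hf
    by_cases ho :
        ((univ.image f).filter fun x => Odd (univ.filter fun i => f i = x).card).Nonempty
    · rw [sum_congr rfl fun s _ => Moment.prod_odd f (hg s)]
      refine (le_abs_self _).trans ((hb _ (fun x hx => ?_) ho).trans
        (le_add_of_nonneg_left (by split_ifs <;> positivity)))
      obtain ⟨i, -, rfl⟩ := mem_image.1 (mem_filter.1 hx).1
      exact hT (Fintype.mem_piFinset.1 hf i)
    · rw [if_pos (Moment.img (Fintype.card_fin _) f ho),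
        sum_congr rfl fun s _ => Moment.prod_odd f (hg s), not_nonempty_iff_eq_empty.1 ho]
      simp only [prod_empty, sum_const, card_univ, nsmul_eq_mul, mul_one]
      exact le_add_of_nonneg_right (by positivity)
  refine (sum_le_sum key).trans ?_
  rw [sum_add_distrib, ← sum_filter, sum_const, sum_const, nsmul_eq_mul, nsmul_eq_mul, add_mul,
    Fintype.card_piFinset_const, ← mul_assoc, mul_comm _ β]
  refine add_le_add (mul_le_mul_of_nonneg_right ?_ (Nat.cast_nonneg _))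
    (mul_le_mul_of_nonneg_right (mul_le_mul_of_nonneg_left ?_ hβ) (Nat.cast_nonneg _))
  · have h1 := Moment.few (ι := Fin (2 * t)) T t
    rw [Fintype.card_fin] at h1
    refine ((Nat.cast_le (α := ℝ)).2 h1).trans ?_
    push_cast
    gcongr
  · push_cast
    gcongr

/-- Few seeds fail some test. -/
theorem moment_bad (X : Finset Ω) (g : S → Ω → ℝ) (hg : ∀ s x, g s x = 1 ∨ g s x = -1) {β : ℝ}
    (hβ : 0 ≤ β) (hb : ∀ A ⊆ X, A.Nonempty → |∑ s, ∏ x ∈ A, g s x| ≤ β * Fintype.card S) (t : ℕ)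
    (F : Finset (Finset Ω)) (hF : ∀ T ∈ F, T ⊆ X) {c : ℝ} (hc : 0 ≤ c) :
    ((univ.filter fun s => ∃ T ∈ F, c < |∑ x ∈ T, g s x|).card : ℝ) * c ^ (2 * t) ≤ F.card *
      (((t : ℝ) ^ (2 * t) * (X.card : ℝ) ^ t + β * (X.card : ℝ) ^ (2 * t)) * Fintype.card S) := by
  have nn : ∀ s (T : Finset Ω), 0 ≤ (∑ x ∈ T, g s x) ^ (2 * t) := fun s T =>
    (even_two_mul t).pow_nonneg _
  rw [← nsmul_eq_mul, ← nsmul_eq_mul]
  refine le_trans ?_ (sum_le_card_nsmul F _ _ fun T hT => moment X g hg hβ hb t (hF T hT))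
  rw [sum_comm]
  refine (card_nsmul_le_sum _ (fun s => ∑ T ∈ F, (∑ x ∈ T, g s x) ^ (2 * t)) _
    fun s hs => ?_).trans
    (sum_le_sum_of_subset_of_nonneg (filter_subset _ _) fun s _ _ => sum_nonneg fun T _ => nn s T)
  obtain ⟨T, hT, hl⟩ := (mem_filter.1 hs).2
  refine le_trans ?_ (single_le_sum (fun T _ => nn s T) hT)
  rw [← (even_two_mul t).pow_abs (∑ x ∈ T, g s x)]
  exact pow_le_pow_left₀ hc hl.le _

/-- For most seeds the correlation with every formula of width `b` is small. -/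
theorem corr_small (L : Finset Λ) (X : Finset Ω) (hX : X.Nonempty) (h : Λ → Ω → Prop)
    (b R t : ℕ) {a e β : ℝ} (ha : 0 < a) (ha1 : a ≤ 1) (he : 0 ≤ e) (hβ : 0 ≤ β)
    (hR : (X.card : ℝ) * (1 - a ^ (2 * b)) ^ R < 1) (g : S → Ω → ℝ)
    (hg : ∀ s x, g s x = 1 ∨ g s x = -1)
    (hb : ∀ A ⊆ X, A.Nonempty → |∑ s, ∏ x ∈ A, g s x| ≤ β * Fintype.card S) :
    ∃ B : Finset S, (B.card : ℝ) * e ^ (4 * t) ≤
        2 ^ L.card * (((L.card : ℝ) + 1) ^ b + 1) ^ R *
          ((t : ℝ) ^ (2 * t) / (X.card : ℝ) ^ t + β) * Fintype.card S ∧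
      ∀ s ∉ B, ∀ E : Finset (Finset Λ), (∀ π ∈ E, π ⊆ L ∧ π.card ≤ b) →
        ∀ Z : Finset Ω, (∀ x, x ∈ Z ↔ x ∈ X ∧ ∀ π ∈ E, ¬∀ l ∈ π, h l x) →
          |∑ x ∈ Z, g s x| ≤ e * (1 + a) ^ L.card * X.card := by
  obtain ⟨F, hF1, hF2, hF3⟩ := spars L X h b R ha ha1 hR
  have hp : (0 : ℝ) < X.card := Nat.cast_pos.2 hX.card_pos
  refine ⟨univ.filter fun s => ∃ T ∈ F, e ^ 2 * X.card < |∑ x ∈ T, g s x|, ?_,
    fun s hs => hF3 (g s) e he (fun x _ => ?_) fun T hT => ?_⟩
  · have h1 := moment_bad X g hg hβ hb t F hF2 (c := e ^ 2 * X.card) (by positivity)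
    have h2 : (F.card : ℝ) ≤ 2 ^ L.card * (((L.card : ℝ) + 1) ^ b + 1) ^ R := by
      exact_mod_cast hF1
    refine le_of_mul_le_mul_right ?_ (pow_pos hp (2 * t))
    have e1 : (e ^ 2 * (X.card : ℝ)) ^ (2 * t) = e ^ (4 * t) * (X.card : ℝ) ^ (2 * t) := by ring
    have e2 : (t : ℝ) ^ (2 * t) * (X.card : ℝ) ^ t + β * (X.card : ℝ) ^ (2 * t) =
        ((t : ℝ) ^ (2 * t) / (X.card : ℝ) ^ t + β) * (X.card : ℝ) ^ (2 * t) := by
      field_simp
      ring
    rw [e1, e2, ← mul_assoc] at h1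
    refine h1.trans ((mul_le_mul_of_nonneg_right h2 (by positivity)).trans_eq (by ring))
  · rcases hg s x with e | e <;> rw [e] <;> norm_num
  · exact not_lt.1 fun hl => hs (mem_filter.2 ⟨mem_univ _, T, hT, hl⟩)

end Vale.Agent.P336S
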