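import Mathlib

/-! Disjoint sparsification by learning. -/

open Finset
open scoped Classical

noncomputable section

namespace Vale.Agent.P336S

namespace Spars

variable {Λ Ω : Type} (h : Λ → Ω → Prop) (P : Finset (Finset Λ)) (θ : ℝ)

/-- The points of `T` that show the pattern. -/
def yes (π : Finset Λ) (T : Finset Ω) : Finset Ω := T.filter fun x => ∀ l ∈ π, h l x

/-- The points of `T` that avoid the pattern. -/
def no (π : Finset Λ) (T : Finset Ω) : Finset Ω := T.filter fun x => ¬∀ l ∈ π, h l x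

/-- Some pattern is rare in `T`. -/
def Light (T : Finset Ω) : Prop :=
  ∃ π ∈ P, (yes h π T).Nonempty ∧ ((yes h π T).card : ℝ) < θ * T.card

/-- One splitting step, steered by `Y`. -/
def step (Y : Finset Λ) (T : Finset Ω) : Finset Ω :=
  if hl : Light h P θ T then (if hl.choose ⊆ Y then yes h hl.choose T else no h hl.choose T) else T

/-- All splitting steps. -/
def nf (K : ℕ) (Y : Finset Λ) (T : Finset Ω) : Finset Ω := (step h P θ Y)^[K] T

/-- The sets reached with at most `r` learning steps. -/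
def fam (K : ℕ) (Y : Finset Λ) : ℕ → Finset Ω → Finset (Finset Ω)
  | 0, T => {nf h P θ K Y T}
  | r + 1, T => insert (nf h P θ K Y T) (P.biUnion fun π => fam K Y r (no h π (nf h P θ K Y T)))

variable {h P θ}

theorem card_add (π : Finset Λ) (T : Finset Ω) : (yes h π T).card + (no h π T).card = T.card :=
  card_filter_add_card_filter_not _

theorem no_lt {π : Finset Λ} {T : Finset Ω} (hn : (yes h π T).Nonempty) :
    (no h π T).card < T.card := by
  have := card_add (h := h) π T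
  have := hn.card_pos
  omega

theorem yes_lt (hθ : θ ≤ 1) {π : Finset Λ} {T : Finset Ω}
    (hn : ((yes h π T).card : ℝ) < θ * T.card) : (yes h π T).card < T.card := by
  have : ((yes h π T).card : ℝ) < T.card :=
    hn.trans_le (mul_le_of_le_one_left (Nat.cast_nonneg _) hθ)
  exact_mod_cast this

theorem step_of_not {Y : Finset Λ} {T : Finset Ω} (hl : ¬Light h P θ T) : step h P θ Y T = T :=
  dif_neg hl

theorem step_lt (hθ : θ ≤ 1) (Y : Finset Λ) {T : Finset Ω} (hl : Light h P θ T) :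
    (step h P θ Y T).card < T.card := by
  rw [step, dif_pos hl]
  split_ifs
  · exact yes_lt hθ hl.choose_spec.2.2
  · exact no_lt hl.choose_spec.2.1

theorem step_sub (Y : Finset Λ) (T : Finset Ω) : step h P θ Y T ⊆ T := by
  rw [step]
  split_ifs
  · exact filter_subset _ _
  · exact filter_subset _ _
  · exact Subset.rfl

theorem nf_of_not (K : ℕ) {Y : Finset Λ} {T : Finset Ω} (hl : ¬Light h P θ T) :
    nf h P θ K Y T = T := Function.iterate_fixed (step_of_not hl) K

theorem nf_step (hθ : θ ≤ 1) (Y : Finset Λ) (K : ℕ) : ∀ T : Finset Ω, T.card ≤ K →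
    nf h P θ K Y (step h P θ Y T) = nf h P θ K Y T := by
  induction K with
  | zero =>
    intro T hT
    rw [step_of_not fun hl => by have := step_lt hθ Y hl; omega]
  | succ K ih =>
    intro T hT
    by_cases hl : Light h P θ T
    · have := step_lt hθ Y hl
      exact ih (step h P θ Y T) (by omega)
    · rw [step_of_not hl]

theorem nf_sub (Y : Finset Λ) (K : ℕ) : ∀ T : Finset Ω, nf h P θ K Y T ⊆ T := by
  induction K with
  | zero => exact fun T => Subset.rfl
  | succ K ih => exact fun T => (ih (step h P θ Y T)).trans (step_sub Y T)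

theorem fam_step (hθ : θ ≤ 1) (Y : Finset Λ) {K : ℕ} (r : ℕ) {T : Finset Ω} (hT : T.card ≤ K) :
    fam h P θ K Y r (step h P θ Y T) = fam h P θ K Y r T := by
  cases r <;> simp only [fam, nf_step hθ Y K T hT]

theorem nf_mem (Y : Finset Λ) (K r : ℕ) (T : Finset Ω) : nf h P θ K Y T ∈ fam h P θ K Y r T := by
  cases r
  · exact mem_singleton_self _
  · exact mem_insert_self _ _

theorem fam_card (Y : Finset Λ) (K r : ℕ) : ∀ T : Finset Ω,
    (fam h P θ K Y r T).card ≤ (P.card + 1) ^ r := by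
  induction r with
  | zero => exact fun T => (card_singleton _).le
  | succ r ih =>
    intro T
    have h1 := card_biUnion_le_card_mul P
      (fun π => fam h P θ K Y r (no h π (nf h P θ K Y T))) _ fun π _ => ih _
    have h2 : 1 ≤ (P.card + 1) ^ r := Nat.one_le_pow _ _ (Nat.succ_pos _)
    refine (card_insert_le _ _).trans ?_
    rw [pow_succ]
    nlinarith

theorem fam_sub (Y : Finset Λ) (K r : ℕ) : ∀ T : Finset Ω, ∀ U ∈ fam h P θ K Y r T, U ⊆ T := by
  induction r with
  | zero => exact fun T U hU => (mem_singleton.1 hU).symm ▸ nf_sub Y K T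
  | succ r ih =>
    intro T U hU
    rcases mem_insert.1 hU with rfl | hU
    · exact nf_sub Y K T
    · obtain ⟨π, -, hπ⟩ := mem_biUnion.1 hU
      exact (ih _ U hπ).trans ((filter_subset _ _).trans (nf_sub Y K T))

/-- The steering sets that matter at a node. -/
def idx (h : Λ → Ω → Prop) (L Y₀ : Finset Λ) (T : Finset Ω) : Finset (Finset Λ) :=
  L.powerset.filter fun Y => Y₀ ⊆ Y ∧ (yes h Y T).Nonempty

theorem idx_mono {L Y₀ Y₁ : Finset Λ} {T U : Finset Ω} (hY : Y₀ ⊆ Y₁) (hU : U ⊆ T) :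
    idx h L Y₁ U ⊆ idx h L Y₀ T := fun Y hy => by
  rw [idx, mem_filter] at hy ⊢
  exact ⟨hy.1, hY.trans hy.2.1, hy.2.2.mono (filter_subset_filter _ hU)⟩

theorem not_sub {L Y₀ Y π : Finset Λ} {T : Finset Ω} (hy : Y ∈ idx h L Y₀ (no h π T)) :
    ¬π ⊆ Y := fun hs => by
  obtain ⟨x, hx⟩ := (mem_filter.1 hy).2.2
  obtain ⟨h1, h2⟩ := mem_filter.1 hx
  exact (mem_filter.1 h1).2 fun l hl => h2 l (hs hl)

theorem main {L : Finset Λ} {b K : ℕ} {a e N : ℝ} (ha : 0 < a) (ha1 : a ≤ 1) (he : 0 ≤ e)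
    (hN : 0 ≤ N) (hP : ∀ π ∈ P, π ⊆ L ∧ π.card ≤ b) {E : Finset (Finset Λ)} (hE : E ⊆ P)
    (g : Ω → ℝ) (n : ℕ) : ∀ T : Finset Ω, T.card = n → ∀ (r : ℕ) (Y₀ : Finset Λ), T.card ≤ K →
      (T.card : ℝ) * (1 - a ^ (2 * b)) ^ r < 1 → Y₀ ⊆ L → (∀ x ∈ T, ∀ l ∈ Y₀, h l x) →
      (∀ x ∈ T, |g x| ≤ 1) → (T.card : ℝ) ≤ a ^ (2 * Y₀.card) * N →
      (∀ Y ∈ idx h L Y₀ T, ∀ U ∈ fam h P (a ^ (2 * b)) K Y r T, |∑ x ∈ U, g x| ≤ e ^ 2 * N) →
      |∑ x ∈ T with (∀ π ∈ E, ¬∀ l ∈ π, h l x), g x| ≤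
        ∑ Y ∈ idx h L Y₀ T, e * a ^ Y.card * N := by
  have hθ : a ^ (2 * b) ≤ 1 := pow_le_one₀ ha.le ha1
  have hθ' : ∀ r : ℕ, 0 ≤ (1 - a ^ (2 * b)) ^ r := fun r => pow_nonneg (sub_nonneg.2 hθ) r
  have pos : ∀ Y : Finset Λ, 0 ≤ e * a ^ Y.card * N := fun Y => by positivity
  induction n using Nat.strong_induction_on with
  | _ n ih =>
  intro T hn r Y₀ hK hr hY hY0 hg hc hf
  have sub : ∀ U ⊆ T, (U.card : ℝ) ≤ T.card := fun U hU => Nat.cast_le.2 (card_le_card hU)
  by_cases hl : Light h P (a ^ (2 * b)) T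
  · obtain ⟨hπ, hne, hlt⟩ := hl.choose_spec
    have hs : ∀ Y, step h P (a ^ (2 * b)) Y T =
        if hl.choose ⊆ Y then yes h hl.choose T else no h hl.choose T := fun Y => dif_pos hl
    set π := hl.choose
    have s1 : yes h π T ⊆ T := filter_subset _ _
    have s2 : no h π T ⊆ T := filter_subset _ _
    have b1 := ih _ (hn ▸ yes_lt hθ hlt) (yes h π T) rfl r (Y₀ ∪ π) ((card_le_card s1).trans hK)
      ((mul_le_mul_of_nonneg_right (sub _ s1) (hθ' r)).trans_lt hr) (union_subset hY (hP π hπ).1)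
      (fun x hx l hl => (mem_union.1 hl).elim (hY0 x (s1 hx) l) ((mem_filter.1 hx).2 l))
      (fun x hx => hg x (s1 hx)) (by
        refine hlt.le.trans ((mul_le_mul_of_nonneg_left hc (by positivity)).trans ?_)
        rw [← mul_assoc, ← pow_add]
        refine mul_le_mul_of_nonneg_right (pow_le_pow_of_le_one ha.le ha1 ?_) hN
        have := card_union_le Y₀ π
        have := (hP π hπ).2
        omega) fun Y hy U hU => by
        refine hf Y (idx_mono subset_union_left s1 hy) U ?_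
        rwa [← fam_step hθ Y r hK, hs, if_pos (subset_union_right.trans (mem_filter.1 hy).2.1)]
    have b2 := ih _ (hn ▸ no_lt hne) (no h π T) rfl r Y₀ ((card_le_card s2).trans hK)
      ((mul_le_mul_of_nonneg_right (sub _ s2) (hθ' r)).trans_lt hr) hY
      (fun x hx => hY0 x (s2 hx)) (fun x hx => hg x (s2 hx)) ((sub _ s2).trans hc)
      fun Y hy U hU => by
        refine hf Y (idx_mono Subset.rfl s2 hy) U ?_
        rwa [← fam_step hθ Y r hK, hs, if_neg (not_sub hy)]
    have hd : Disjoint (idx h L (Y₀ ∪ π) (yes h π T)) (idx h L Y₀ (no h π T)) :=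
      disjoint_left.2 fun Y h1 h2 =>
        not_sub h2 (subset_union_right.trans (mem_filter.1 h1).2.1)
    rw [← sum_filter_add_sum_filter_not _ fun x => ∀ l ∈ π, h l x, filter_comm,
      filter_comm _ fun x => ¬∀ l ∈ π, h l x]
    refine (abs_add_le _ _).trans ((add_le_add b1 b2).trans ?_)
    rw [← sum_union hd]
    exact sum_le_sum_of_subset_of_nonneg
      (union_subset (idx_mono subset_union_left s1) (idx_mono Subset.rfl s2)) fun Y _ _ => pos Y
  by_cases hw : ∃ π ∈ E, (yes h π T).Nonempty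
  · obtain ⟨π, hπ, hne⟩ := hw
    have s2 : no h π T ⊆ T := filter_subset _ _
    have hv : a ^ (2 * b) * T.card ≤ (yes h π T).card :=
      not_lt.1 fun hlt => hl ⟨π, hE hπ, hne, hlt⟩
    have h1 : (1 : ℝ) ≤ T.card := by
      exact_mod_cast (hne.mono (filter_subset _ _)).card_pos
    cases r with
    | zero => exact absurd hr (by rw [pow_zero, mul_one]; exact not_lt.2 h1)
    | succ r =>
      have hq : ((no h π T).card : ℝ) ≤ T.card * (1 - a ^ (2 * b)) := by
        have : ((yes h π T).card : ℝ) + (no h π T).card = T.card := by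
          exact_mod_cast card_add π T
        linarith
      have b2 := ih _ (hn ▸ no_lt hne) (no h π T) rfl r Y₀ ((card_le_card s2).trans hK)
        ((mul_le_mul_of_nonneg_right hq (hθ' r)).trans_lt (by rwa [mul_assoc, ← pow_succ'])) hY
        (fun x hx => hY0 x (s2 hx)) (fun x hx => hg x (s2 hx)) ((sub _ s2).trans hc)
        fun Y hy U hU => by
          refine hf Y (idx_mono Subset.rfl s2 hy) U ?_
          rw [fam, nf_of_not K hl]
          exact mem_insert_of_mem (mem_biUnion.2 ⟨π, hE hπ, hU⟩)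
      have e1 : (T.filter fun x => ∀ π ∈ E, ¬∀ l ∈ π, h l x) =
          (no h π T).filter fun x => ∀ π ∈ E, ¬∀ l ∈ π, h l x := by
        rw [no, filter_filter]
        exact filter_congr fun x _ => ⟨fun hx => ⟨hx π hπ, hx⟩, fun hx => hx.2⟩
      rw [e1]
      exact b2.trans (sum_le_sum_of_subset_of_nonneg (idx_mono Subset.rfl s2) fun Y _ _ => pos Y)
  rw [filter_true_of_mem (p := fun x => ∀ π ∈ E, ¬∀ l ∈ π, h l x)
    fun x hx π hπ hy => hw ⟨π, hπ, x, mem_filter.2 ⟨hx, hy⟩⟩]
  rcases T.eq_empty_or_nonempty with rfl | ⟨x, hx⟩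
  · rw [sum_empty, abs_zero]
    exact sum_nonneg fun Y _ => pos Y
  have hm : Y₀ ∈ idx h L Y₀ T :=
    mem_filter.2 ⟨mem_powerset.2 hY, Subset.rfl, x, mem_filter.2 ⟨hx, hY0 x hx⟩⟩
  refine le_trans ?_ (single_le_sum (fun Y _ => pos Y) hm)
  have b1 := hf Y₀ hm _ (nf_mem Y₀ K r T)
  rw [nf_of_not K hl] at b1
  have b2 : |∑ x ∈ T, g x| ≤ a ^ (2 * Y₀.card) * N := by
    refine (abs_sum_le_sum_abs _ _).trans (((sum_le_card_nsmul _ _ 1 hg).trans_eq ?_).trans hc)
    rw [nsmul_eq_mul, mul_one]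
  rcases le_total e (a ^ Y₀.card) with c | c
  · refine b1.trans (mul_le_mul_of_nonneg_right ?_ hN)
    rw [sq]
    exact mul_le_mul_of_nonneg_left c he
  · refine b2.trans (mul_le_mul_of_nonneg_right ?_ hN)
    rw [pow_mul', sq]
    exact mul_le_mul_of_nonneg_right c (by positivity)

theorem pat_card (L : Finset Λ) (b : ℕ) :
    (L.powerset.filter fun π => π.card ≤ b).card ≤ (L.card + 1) ^ b := by
  induction b with
  | zero =>
    refine card_le_one.2 fun x hx y hy => ?_
    rw [card_eq_zero.1 (Nat.le_zero.1 (mem_filter.1 hx).2),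
      card_eq_zero.1 (Nat.le_zero.1 (mem_filter.1 hy).2)]
  | succ b ih =>
    have hs : (L.powerset.filter fun π => π.card ≤ b + 1) ⊆
        (L.powerset.filter fun π => π.card ≤ b) ∪
          (L ×ˢ L.powerset.filter fun π => π.card ≤ b).image fun v => insert v.1 v.2 := by
      intro π hπ
      obtain ⟨h1, h2⟩ := mem_filter.1 hπ
      rcases π.eq_empty_or_nonempty with rfl | ⟨l, hl⟩
      · exact mem_union_left _ (mem_filter.2 ⟨h1, Nat.zero_le _⟩)
      · refine mem_union_right _ (mem_image.2 ⟨(l, π.erase l), mem_product.2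
          ⟨mem_powerset.1 h1 hl, mem_filter.2 ⟨mem_powerset.2
            ((erase_subset _ _).trans (mem_powerset.1 h1)), ?_⟩⟩, insert_erase hl⟩)
        rw [card_erase_of_mem hl]
        omega
    refine (card_le_card hs).trans ((card_union_le _ _).trans ?_)
    refine (Nat.add_le_add_left card_image_le _).trans ?_
    rw [card_product, pow_succ]
    nlinarith

end Spars

/-- A small family of tests controls the correlation with every formula of width `b`. -/
theorem spars {Λ Ω : Type} (L : Finset Λ) (X : Finset Ω) (h : Λ → Ω → Prop) (b R : ℕ) {a : ℝ}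
    (ha : 0 < a) (ha1 : a ≤ 1) (hR : (X.card : ℝ) * (1 - a ^ (2 * b)) ^ R < 1) :
    ∃ F : Finset (Finset Ω), F.card ≤ 2 ^ L.card * ((L.card + 1) ^ b + 1) ^ R ∧
      (∀ T ∈ F, T ⊆ X) ∧ ∀ (g : Ω → ℝ) (e : ℝ), 0 ≤ e → (∀ x ∈ X, |g x| ≤ 1) →
        (∀ T ∈ F, |∑ x ∈ T, g x| ≤ e ^ 2 * X.card) →
        ∀ E : Finset (Finset Λ), (∀ π ∈ E, π ⊆ L ∧ π.card ≤ b) →
          ∀ S : Finset Ω, (∀ x, x ∈ S ↔ x ∈ X ∧ ∀ π ∈ E, ¬∀ l ∈ π, h l x) →
            |∑ x ∈ S, g x| ≤ e * (1 + a) ^ L.card * X.card := by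
  set P := L.powerset.filter fun π => π.card ≤ b with hP
  refine ⟨L.powerset.biUnion fun Y => Spars.fam h P (a ^ (2 * b)) X.card Y R X, ?_,
    fun T hT => ?_, fun g e he hg hF E hE S hS => ?_⟩
  · refine (card_biUnion_le_card_mul _ _ _ fun Y _ => Spars.fam_card Y _ R X).trans ?_
    rw [card_powerset]
    exact Nat.mul_le_mul_left _
      (Nat.pow_le_pow_left (Nat.succ_le_succ (Spars.pat_card L b)) R)
  · obtain ⟨Y, -, hY⟩ := mem_biUnion.1 hT
    exact Spars.fam_sub Y _ R X T hY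
  · have h1 := Spars.main (h := h) (P := P) (L := L) (K := X.card) ha ha1 he
      (Nat.cast_nonneg X.card)
      (fun π hπ => ⟨mem_powerset.1 (mem_filter.1 hπ).1, (mem_filter.1 hπ).2⟩)
      (fun π hπ => mem_filter.2 ⟨mem_powerset.2 (hE π hπ).1, (hE π hπ).2⟩) g _ X rfl R ∅ le_rfl hR
      (empty_subset _) (fun _ _ _ hl => absurd hl (notMem_empty _)) hg (by simp)
      fun Y hY U hU => hF U (mem_biUnion.2 ⟨Y, (mem_filter.1 hY).1, hU⟩)
    rw [show S = X.filter fun x => ∀ π ∈ E, ¬∀ l ∈ π, h l x from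
      Finset.ext fun x => by rw [hS, mem_filter]]
    refine h1.trans ((sum_le_sum_of_subset_of_nonneg (filter_subset _ _)
      fun Y _ _ => by positivity).trans_eq ?_)
    rw [← sum_mul, ← mul_sum, ← prod_const, prod_one_add]
    simp only [prod_const]

end Vale.Agent.P336S
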